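import Mathlib

/-!
P109, smooth tables: the degree and the cell size as functions of the precision.
-/

namespace Vale.Agent.P109

open Filter Topology

open Classical in
/-- The largest `s` with `s ^ 4 ≤ n` and `|R j| ≤ 2 ^ √n` for all `j ≤ s ^ 2`. -/
noncomputable def scaleS (R : ℕ → ℝ) (n : ℕ) : ℕ :=
  Nat.findGreatest (fun s => s ^ 4 ≤ n ∧ ∀ j ≤ s ^ 2, |R j| ≤ (2 : ℝ) ^ n.sqrt) n

/-- The cells have side `2 ^ (-scaleM R n)`. -/
noncomputable def scaleM (R : ℕ → ℝ) (n : ℕ) : ℕ := n / scaleS R n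

/-- The size exponent of the tables. -/
noncomputable def scaleF (R : ℕ → ℝ) (n : ℕ) : ℝ :=
  max (Real.sqrt n) ((n : ℝ) / Real.sqrt (scaleS R n))

theorem nat_sqrt_tendsto : Tendsto Nat.sqrt atTop atTop :=
  tendsto_atTop_atTop.2 fun b => ⟨b * b, fun _ hn => Nat.le_sqrt.2 hn⟩

theorem scaleS_tendsto (R : ℕ → ℝ) : Tendsto (scaleS R) atTop atTop := by
  refine tendsto_atTop.2 fun s => ?_
  have h1 : ∀ᶠ n : ℕ in atTop, ∀ j ∈ Finset.range (s ^ 2 + 1), |R j| ≤ (2 : ℝ) ^ n.sqrt :=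
    (Finset.range (s ^ 2 + 1)).eventually_all.2 fun j _ =>
      ((tendsto_pow_atTop_atTop_of_one_lt (one_lt_two (α := ℝ))).comp
        nat_sqrt_tendsto).eventually_ge_atTop _
  filter_upwards [h1, eventually_ge_atTop (s ^ 4)] with n hn hn4
  classical
  exact Nat.le_findGreatest ((Nat.le_self_pow (by norm_num) s).trans hn4)
    ⟨hn4, fun j hj => hn j (Finset.mem_range.2 (by omega))⟩

theorem scaleS_spec (R : ℕ → ℝ) {n : ℕ} (h : scaleS R n ≠ 0) :
    scaleS R n ^ 4 ≤ n ∧ ∀ j ≤ scaleS R n ^ 2, |R j| ≤ (2 : ℝ) ^ n.sqrt := by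
  classical
  unfold scaleS at h ⊢
  exact Nat.findGreatest_of_ne_zero rfl h

theorem scaleM_le (R : ℕ → ℝ) (n : ℕ) : scaleM R n ≤ n := Nat.div_le_self _ _

theorem scaleF_sqrt (R : ℕ → ℝ) (n : ℕ) : Real.sqrt n ≤ scaleF R n := le_max_left _ _

theorem scaleF_small (R : ℕ → ℝ) :
    Tendsto (fun n : ℕ => scaleF R n / n) atTop (𝓝 0) := by
  have h1 : Tendsto (fun n : ℕ => (Real.sqrt n)⁻¹) atTop (𝓝 0) :=
    tendsto_inv_atTop_zero.comp (Real.tendsto_sqrt_atTop.comp tendsto_natCast_atTop_atTop)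
  have h2 : Tendsto (fun n : ℕ => (Real.sqrt (scaleS R n))⁻¹) atTop (𝓝 0) :=
    tendsto_inv_atTop_zero.comp (Real.tendsto_sqrt_atTop.comp
      (tendsto_natCast_atTop_atTop.comp (scaleS_tendsto R)))
  have h := h1.max h2
  rw [max_self] at h
  refine h.congr' ?_
  filter_upwards [eventually_ge_atTop 1] with n hn
  have hpos : (0 : ℝ) < n := Nat.cast_pos.2 hn
  have hs : (0 : ℝ) < Real.sqrt n := Real.sqrt_pos.2 hpos
  rw [scaleF, ← max_div_div_right hpos.le]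
  congr 1
  · rw [eq_div_iff hpos.ne', inv_mul_eq_div, Real.div_sqrt]
  · field_simp

/-- Division leaves at most one divisor. -/
theorem lt_scaleM_succ (R : ℕ → ℝ) {n : ℕ} (h : 1 ≤ scaleS R n) :
    n < (scaleM R n + 1) * scaleS R n := by
  rw [mul_comm]; exact Nat.lt_mul_div_succ n h

theorem scaleM_large (R : ℕ → ℝ) (a : ℕ) :
    ∀ᶠ n : ℕ in atTop, a + n.sqrt ≤ scaleM R n := by
  filter_upwards [(scaleS_tendsto R).eventually_ge_atTop (a + 2)] with n hs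
  obtain ⟨h4, -⟩ := scaleS_spec R (n := n) (by omega)
  have h3 := lt_scaleM_succ R (n := n) (by omega)
  set s := scaleS R n
  have hq : s ^ 2 ≤ n.sqrt := Nat.le_sqrt.2 (le_trans (le_of_eq (by ring)) h4)
  have hq2 : n.sqrt * n.sqrt ≤ n := Nat.sqrt_le n
  have h1 : (a + n.sqrt + 1) * s ≤ n := by
    have h2 : (a + n.sqrt + 1) ≤ (a + 2) * n.sqrt := by
      have : 1 ≤ n.sqrt := le_trans (Nat.one_le_pow _ _ (by omega)) hq
      nlinarith
    calc (a + n.sqrt + 1) * s ≤ s * n.sqrt * s :=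
          Nat.mul_le_mul_right _ (h2.trans (Nat.mul_le_mul_right _ hs))
      _ = s ^ 2 * n.sqrt := by ring
      _ ≤ n.sqrt * n.sqrt := Nat.mul_le_mul_right _ hq
      _ ≤ n := hq2
  by_contra hlt
  have : (scaleM R n + 1) * s ≤ (a + n.sqrt + 1) * s := Nat.mul_le_mul_right _ (by omega)
  omega

theorem cell_tendsto (R : ℕ → ℝ) :
    Tendsto (fun n => (2⁻¹ : ℝ) ^ scaleM R n) atTop (𝓝 0) :=
  (tendsto_pow_atTop_nhds_zero_of_lt_one (by norm_num) (by norm_num)).comp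
    (tendsto_atTop.2 fun b => (scaleM_large R b).mono fun n hn => le_trans (Nat.le_add_right _ _) hn)

/-- Terms of order at least two are smaller than a cell. -/
theorem middle_terms (R : ℕ → ℝ) (B : ℝ) :
    ∀ᶠ n : ℕ in atTop, ∀ k, 2 ≤ k → k < scaleS R n ^ 2 → ∀ A : ℝ, 0 ≤ A → A ≤ B →
      (B * (2⁻¹ : ℝ) ^ scaleM R n) ^ k * (A ^ (k + 1) * |R k|) ≤ (2⁻¹ : ℝ) ^ scaleM R n := by
  obtain ⟨a, ha⟩ := pow_unbounded_of_one_lt (max B 1) (one_lt_two (α := ℝ))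
  filter_upwards [scaleM_large R (6 * a), (scaleS_tendsto R).eventually_ge_atTop 1]
    with n hm hs k hk2 hk A hA hAB
  obtain ⟨-, hR⟩ := scaleS_spec R (n := n) (by omega)
  set m := scaleM R n
  have hB : |B| ≤ (2 : ℝ) ^ a :=
    abs_le.2 ⟨by linarith [pow_pos (two_pos (α := ℝ)) a], (le_max_left _ _).trans ha.le⟩
  have hA' : A ≤ (2 : ℝ) ^ a := hAB.trans ((le_abs_self B).trans hB)
  have hexp : a * k + (a * (k + 1) + n.sqrt) + m ≤ m * k := by
    obtain ⟨i, rfl⟩ : ∃ i, k = i + 2 := ⟨k - 2, by omega⟩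
    have : (6 * a + n.sqrt) * (i + 1) ≤ m * (i + 1) := Nat.mul_le_mul_right _ hm
    nlinarith
  calc (B * (2⁻¹ : ℝ) ^ m) ^ k * (A ^ (k + 1) * |R k|)
      ≤ |B * (2⁻¹ : ℝ) ^ m| ^ k * (((2 : ℝ) ^ a) ^ (k + 1) * (2 : ℝ) ^ n.sqrt) := by
        refine mul_le_mul ?_ ?_ (by positivity) (by positivity)
        · rw [← abs_pow]; exact le_abs_self _
        · exact mul_le_mul (pow_le_pow_left₀ hA hA' _) (hR k hk.le) (abs_nonneg _) (by positivity)
    _ ≤ ((2 : ℝ) ^ a * (2⁻¹ : ℝ) ^ m) ^ k * (((2 : ℝ) ^ a) ^ (k + 1) * (2 : ℝ) ^ n.sqrt) := by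
        rw [abs_mul, abs_of_pos (pow_pos (by norm_num : (0 : ℝ) < 2⁻¹) m)]
        gcongr
    _ = (2 : ℝ) ^ (a * k + (a * (k + 1) + n.sqrt)) / (2 : ℝ) ^ (m * k) := by
        rw [mul_pow, inv_pow, inv_pow, ← pow_mul, ← pow_mul, ← pow_mul, div_eq_mul_inv, pow_add,
          pow_add]
        ring
    _ ≤ _ := by
        rw [div_le_iff₀ (by positivity), inv_pow, inv_mul_eq_div, le_div_iff₀ (by positivity),
          ← pow_add]
        exact pow_le_pow_right₀ one_le_two hexp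

/-- The remainder is below every exponential precision. -/
theorem remainder_term (R : ℕ → ℝ) (B : ℝ) (K : ℕ) :
    ∀ᶠ n : ℕ in atTop, 1 ≤ scaleS R n ∧ ∀ A : ℝ, 0 ≤ A → A ≤ B →
      A ^ (scaleS R n ^ 2 + 1) * |R (scaleS R n ^ 2)|
        * (B * (2⁻¹ : ℝ) ^ scaleM R n) ^ (scaleS R n ^ 2) ≤ (2⁻¹ : ℝ) ^ (K * n) := by
  obtain ⟨a, ha⟩ := pow_unbounded_of_one_lt (max B 1) (one_lt_two (α := ℝ))
  filter_upwards [(scaleS_tendsto R).eventually_ge_atTop (K + 3 * a + 3)] with n hs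
  refine ⟨by omega, fun A hA hAB => ?_⟩
  obtain ⟨h4, hR⟩ := scaleS_spec R (n := n) (by omega)
  have hm := lt_scaleM_succ R (n := n) (by omega)
  set m := scaleM R n
  set s := scaleS R n
  have hB : |B| ≤ (2 : ℝ) ^ a :=
    abs_le.2 ⟨by linarith [pow_pos (two_pos (α := ℝ)) a], (le_max_left _ _).trans ha.le⟩
  have hA' : A ≤ (2 : ℝ) ^ a := hAB.trans ((le_abs_self B).trans hB)
  have hexp : K * n + (a * (s ^ 2 + 1) + n.sqrt + a * s ^ 2) ≤ m * s ^ 2 := by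
    have h1 : s ^ 2 ≤ n := (Nat.pow_le_pow_right (by omega) (by norm_num)).trans h4
    have h2 : n.sqrt ≤ n := Nat.sqrt_le_self n
    have h3 : n * s < (m + 1) * s * s := Nat.mul_lt_mul_of_pos_right hm (by omega)
    have h5 : n * (K + 3 * a + 3) ≤ n * s := Nat.mul_le_mul_left _ hs
    nlinarith [Nat.mul_le_mul_left a h1]
  calc A ^ (s ^ 2 + 1) * |R (s ^ 2)| * (B * (2⁻¹ : ℝ) ^ m) ^ (s ^ 2)
      ≤ ((2 : ℝ) ^ a) ^ (s ^ 2 + 1) * (2 : ℝ) ^ n.sqrt * |B * (2⁻¹ : ℝ) ^ m| ^ (s ^ 2) := by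
        refine le_trans (mul_le_mul_of_nonneg_left
          ((le_abs_self _).trans (abs_pow _ _).le) (by positivity)) ?_
        gcongr
        exact hR _ le_rfl
    _ ≤ ((2 : ℝ) ^ a) ^ (s ^ 2 + 1) * (2 : ℝ) ^ n.sqrt
          * ((2 : ℝ) ^ a * (2⁻¹ : ℝ) ^ m) ^ (s ^ 2) := by
        rw [abs_mul, abs_of_pos (pow_pos (by norm_num : (0 : ℝ) < 2⁻¹) m)]
        gcongr
    _ = (2 : ℝ) ^ (a * (s ^ 2 + 1) + n.sqrt + a * s ^ 2) / (2 : ℝ) ^ (m * s ^ 2) := by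
        rw [mul_pow, inv_pow, inv_pow, ← pow_mul, ← pow_mul, ← pow_mul, div_eq_mul_inv, pow_add,
          pow_add]
        ring
    _ ≤ _ := by
        rw [div_le_iff₀ (by positivity), inv_pow, inv_mul_eq_div, le_div_iff₀ (by positivity),
          ← pow_add]
        exact pow_le_pow_right₀ one_le_two (by omega)

/-- The tables have size at most `2 ^ scaleF`. -/
theorem table_size (R : ℕ → ℝ) (d c : ℕ) :
    ∀ᶠ n : ℕ in atTop,
      ((c * (2 ^ (scaleM R n) * c) ^ d * ((scaleS R n ^ 2) ^ d + 1) + 1 : ℕ) : ℝ)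
        ≤ (2 : ℝ) ^ scaleF R n := by
  obtain ⟨b, hb⟩ : ∃ b, c ≤ 2 ^ b := ⟨c, Nat.lt_two_pow_self.le⟩
  filter_upwards [(scaleS_tendsto R).eventually_ge_atTop
    (4 * d ^ 2 + 2 * (b + d * b + 2 + 2 * d) + 1)] with n hs
  obtain ⟨h4, -⟩ := scaleS_spec R (n := n) (by omega)
  set m := scaleM R n
  set s := scaleS R n
  set e := b + d * b + 2 + 2 * d
  have hN : c * (2 ^ m * c) ^ d * ((s ^ 2) ^ d + 1) + 1 ≤ 2 ^ (d * m + e * s) := by
    have h1 : (s ^ 2) ^ d + 1 ≤ 2 ^ (2 * d * s + 1) := by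
      have : (s ^ 2) ^ d ≤ 2 ^ (2 * d * s) := by
        rw [← pow_mul, show 2 * d * s = s * (2 * d) by ring, pow_mul 2 s]
        exact Nat.pow_le_pow_left Nat.lt_two_pow_self.le _
      rw [pow_succ 2 (2 * d * s)]
      have : 1 ≤ 2 ^ (2 * d * s) := Nat.one_le_two_pow
      omega
    have h2 : c * (2 ^ m * c) ^ d * ((s ^ 2) ^ d + 1) ≤ 2 ^ (b + (m + b) * d + (2 * d * s + 1)) := by
      rw [pow_add, pow_add, pow_mul 2 (m + b), pow_add 2 m b]
      gcongr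
    have h3 : 1 ≤ 2 ^ (b + (m + b) * d + (2 * d * s + 1)) := Nat.one_le_two_pow
    have h5 : b + (m + b) * d + (2 * d * s + 1) + 1 ≤ d * m + e * s := by
      have : (b + d * b + 2) * 1 ≤ (b + d * b + 2) * s := Nat.mul_le_mul_left _ (by omega)
      simp only [e]; nlinarith
    refine le_trans ?_ (Nat.pow_le_pow_right two_pos h5)
    rw [pow_succ 2 (b + (m + b) * d + (2 * d * s + 1))]; omega
  refine le_trans (Nat.cast_le.2 hN) ?_
  rw [Nat.cast_pow, Nat.cast_ofNat, ← Real.rpow_natCast]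
  refine Real.rpow_le_rpow_of_exponent_le one_le_two (le_trans ?_ (le_max_right _ _))
  have hspos : (0 : ℝ) < s := Nat.cast_pos.2 (by omega)
  have hsq : Real.sqrt s * Real.sqrt s = s := Real.mul_self_sqrt hspos.le
  rw [le_div_iff₀ (Real.sqrt_pos.2 hspos)]
  have hd : 2 * (d : ℝ) ≤ Real.sqrt s := by
    refine Real.le_sqrt_of_sq_le ?_
    have : 4 * d ^ 2 ≤ s := by omega
    have h := (Nat.cast_le (α := ℝ)).2 this
    push_cast at h ⊢
    linarith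
  have hms : (m : ℝ) * s ≤ n := by exact_mod_cast Nat.div_mul_le_self n s
  have hes : 2 * ((e : ℝ) * s * s) ≤ n := by
    have h1 : 2 * (e * s * s) ≤ n := by
      have h2 : 2 * e ≤ s ^ 2 := le_trans (by omega) (Nat.le_self_pow (by norm_num) s)
      calc 2 * (e * s * s) = 2 * e * s ^ 2 := by ring
        _ ≤ s ^ 2 * s ^ 2 := Nat.mul_le_mul_right _ h2
        _ = s ^ 4 := by ring
        _ ≤ n := h4
    exact_mod_cast h1
  have hs1 : Real.sqrt s ≤ s := by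
    refine Real.sqrt_le_iff.2 ⟨hspos.le, ?_⟩
    have : (1 : ℝ) ≤ s := by exact_mod_cast (by omega : 1 ≤ s)
    nlinarith
  have h6 : 2 * ((d : ℝ) * m * Real.sqrt s) ≤ (m : ℝ) * s := by
    have h := mul_le_mul_of_nonneg_right hd (Real.sqrt_nonneg (s : ℝ))
    rw [hsq] at h
    have := mul_le_mul_of_nonneg_left h (Nat.cast_nonneg m : (0 : ℝ) ≤ m)
    linarith
  have h7 : (e : ℝ) * s * Real.sqrt s ≤ (e : ℝ) * s * s :=
    mul_le_mul_of_nonneg_left hs1 (by positivity)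
  push_cast
  nlinarith

end Vale.Agent.P109
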