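import Mathlib

/-!
P109, smooth tables: Taylor's bound on a convex set.
-/

namespace Vale.Agent.P109

open Set Finset
open scoped Nat

variable {E F : Type*} [NormedAddCommGroup E] [NormedSpace ℝ E] [NormedAddCommGroup F]
  [NormedSpace ℝ F]

/-- The derivatives of a map along a segment. -/
theorem iteratedDerivWithin_segment {f : E → F} {s : Set E} (hs : Convex ℝ s)
    (hu : UniqueDiffOn ℝ s) {N : ℕ} (hf : ContDiffOn ℝ N f s) {x v : E} (hx : x ∈ s)
    (hxv : x + v ∈ s) :
    ∀ k ≤ N, ∀ t ∈ Icc (0 : ℝ) 1,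
      iteratedDerivWithin k (fun t : ℝ => f (x + t • v)) (Icc 0 1) t
        = iteratedFDerivWithin ℝ k f s (x + t • v) fun _ => v := by
  have hseg : MapsTo (fun t : ℝ => x + t • v) (Icc 0 1) s := fun t ht =>
    hs.add_smul_mem hx hxv ht
  intro k
  induction k with
  | zero => intro _ t _; simp
  | succ k ih =>
    intro hk t ht
    have hd : DifferentiableWithinAt ℝ (iteratedFDerivWithin ℝ k f s) s (x + t • v) :=
      hf.differentiableOn_iteratedFDerivWithin (by exact_mod_cast hk) hu _ (hseg ht)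
    have hline : HasDerivWithinAt (fun t : ℝ => x + t • v) v (Icc 0 1) t := by
      simpa using ((hasDerivWithinAt_id t (Icc (0 : ℝ) 1)).smul_const v).const_add x
    have h1 := hd.hasFDerivWithinAt.comp_hasDerivWithinAt t hline hseg
    have h2 := ((ContinuousMultilinearMap.apply ℝ (fun _ : Fin k => E) F
      (fun _ => v)).hasFDerivAt).comp_hasDerivWithinAt t h1
    rw [iteratedDerivWithin_succ, derivWithin_congr (fun y hy => ih (by omega) y hy)
      (ih (by omega) t ht), iteratedFDerivWithin_succ_apply_left]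
    exact h2.derivWithin (uniqueDiffOn_Icc zero_lt_one t ht)

/-- Taylor's bound on a convex set. -/
theorem taylor_convex {f : E → F} {s : Set E} (hs : Convex ℝ s) (hu : UniqueDiffOn ℝ s) {n : ℕ}
    (hf : ContDiffOn ℝ (n + 1 : ℕ) f s) {x v : E} (hx : x ∈ s) (hxv : x + v ∈ s) {C : ℝ}
    (hC : ∀ y ∈ s, ‖iteratedFDerivWithin ℝ (n + 1) f s y‖ ≤ C) :
    ‖f (x + v) - ∑ k ∈ range (n + 1), (k ! : ℝ)⁻¹ • iteratedFDerivWithin ℝ k f s x (fun _ => v)‖
      ≤ C * ‖v‖ ^ (n + 1) := by
  have hseg : MapsTo (fun t : ℝ => x + t • v) (Icc 0 1) s := fun t ht =>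
    hs.add_smul_mem hx hxv ht
  have hC0 : 0 ≤ C := (norm_nonneg _).trans (hC x hx)
  have hline : ContDiff ℝ (n + 1 : ℕ) fun t : ℝ => x + t • v :=
    contDiff_const.add (contDiff_id.smul contDiff_const)
  have hg : ContDiffOn ℝ (n + 1 : ℕ) (fun t : ℝ => f (x + t • v)) (Icc 0 1) :=
    hf.comp hline.contDiffOn hseg
  have hb : ∀ y ∈ Icc (0 : ℝ) 1,
      ‖iteratedDerivWithin (n + 1) (fun t : ℝ => f (x + t • v)) (Icc 0 1) y‖ ≤ C * ‖v‖ ^ (n + 1) := by
    intro y hy
    rw [iteratedDerivWithin_segment hs hu hf hx hxv _ le_rfl y hy]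
    refine ((ContinuousMultilinearMap.le_opNorm _ _).trans (le_of_eq ?_)).trans
      (mul_le_mul_of_nonneg_right (hC _ (hseg hy)) (pow_nonneg (norm_nonneg v) _))
    simp
  have h := taylor_mean_remainder_bound (x := (1 : ℝ)) zero_le_one
    (by exact_mod_cast hg) (right_mem_Icc.2 zero_le_one) hb
  rw [sub_zero, one_pow, mul_one, one_smul] at h
  have e : taylorWithinEval (fun t : ℝ => f (x + t • v)) n (Icc 0 1) 0 1
      = ∑ k ∈ range (n + 1), (k ! : ℝ)⁻¹ • iteratedFDerivWithin ℝ k f s x (fun _ => v) := by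
    rw [taylor_within_apply]
    refine sum_congr rfl fun k hk => ?_
    rw [iteratedDerivWithin_segment hs hu hf hx hxv k (by
      have := Finset.mem_range.1 hk; omega) 0 (left_mem_Icc.2 zero_le_one), zero_smul, add_zero]
    simp
  rw [e] at h
  exact h.trans (div_le_self (mul_nonneg hC0 (pow_nonneg (norm_nonneg v) _))
    (by exact_mod_cast Nat.factorial_pos n))

end Vale.Agent.P109
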